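import Vale.Agent.P267.H457.Block
import Vale.Agent.P267.H757.NF3

/-!
# P267, LINE X / ROUTE S of the endgame: the structure theorem for the curves (G-ORD)

`Chain O`: the classes `b = (i, k)` of `O : BlockOut X n` are numbered by `ord : Fin n × ℤ ≃ ℤ`,
increasing outward, `ord (i, k + 1) = ord (i, k) + n`; the curves `C l`, `l : ℤ`, are embedded
projective lines with norm functions `Nc l`; the norm function `N l` of the section `α_l` is
`Nc l * ∏_{l - s l ≤ j < l} N j`, that is `D_l = C_l + ∑_{l - s l ≤ j < l} D_j`; the zero set of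
`α_l` is the union of the `C j`, `j ≤ l` (it is not connected in general); for `j < l` the curve
`C l` meets `C j` iff `j = l - s l`, in one point and transversally.

`OrdThm` is the statement that it exists.
-/

set_option linter.unusedVariables false

open scoped Manifold ContDiff ComplexConjugate Matrix Topology
open Set Filter
open Vale.Agent.P272.K (Cm)
open Vale.Agent.P267.FL Vale.Agent.P267.H158 Vale.Agent.P267.XT Vale.Agent.P267.H338
open Vale.Agent.P267.H757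

noncomputable section

namespace Vale.Agent.P267.LineX

variable {X : Type} [TopologicalSpace X] [ChartedSpace C2 X] [IsManifold 𝓘(ℂ, C2) ω X] {n : ℕ}

/-- The structure theorem for the curves on the infinite cyclic cover. -/
structure Chain (O : BlockOut X n) where
  /-- the total order of the classes, outward increasing -/
  ord : Fin n × ℤ ≃ ℤ
  ord_shift : ∀ i k, ord (i, k + 1) = ord (i, k) + n
  /-- `I_l = [l - s l, l - 1]` -/
  s : ℤ → ℕ
  s_pos : ∀ l, 1 ≤ s l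
  s_per : ∀ l, s (l + n) = s l
  /-- every `i` lies in at most two of the `I_l` -/
  word : ∀ l j, l - s l + 2 ≤ j → j ≤ l - 1 → s j = 1
  /-- the curves -/
  C : ℤ → EmbP1 (Cov O.B.hh)
  C_shift : ∀ l, (C (l + n)).image = O.B.D.sh 1 '' (C l).image
  /-- the norm functions of the curves -/
  Nc : ℤ → Cov O.B.hh → ℝ
  Nc_norm : ∀ l, IsNormFn C2 (Nc l)
  Nc_zero : ∀ l x, Nc l x = 0 ↔ x ∈ (C l).image
  /-- `Nc l` vanishes to first order along `C l` -/
  Nc_red : ∀ l x, x ∈ (C l).image → ∃ U g φ, x ∈ U ∧ LocRep C2 (Nc l) U g φ ∧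
    mfderiv 𝓘(ℂ, C2) 𝓘(ℂ) g x ≠ 0
  /-- `Nc l` is bounded above and below at the inner end -/
  Nc_in : ∀ l, ∃ K : ℝ, 0 < K ∧ ∀ x, O.B.D.f x ≤ -K → K⁻¹ ≤ Nc l x ∧ Nc l x ≤ K
  /-- `D_l = C_l + ∑_{j ∈ I_l} D_j` -/
  div : ∀ l x, O.N (ord.symm l) x =
    Nc l x * ∏ j ∈ Finset.Ico (l - s l) l, O.N (ord.symm j) x
  zero : ∀ l x, O.N (ord.symm l) x = 0 ↔ ∃ j ≤ l, x ∈ (C j).image
  /-- intersections -/
  disj : ∀ l j, j < l → j ≠ l - s l → Disjoint (C l).image (C j).image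
  node : ∀ l, ∃ p, (C l).image ∩ (C (l - s l)).image = {p}
  transv : ∀ l p, p ∈ (C l).image → p ∈ (C (l - s l)).image →
    ∀ U g φ U' g' φ', p ∈ U → p ∈ U' → LocRep C2 (Nc l) U g φ →
      LocRep C2 (Nc (l - s l)) U' g' φ' →
      LinearIndependent ℂ ![mfderiv 𝓘(ℂ, C2) 𝓘(ℂ) g p, mfderiv 𝓘(ℂ, C2) 𝓘(ℂ) g' p]

/-- G-ORD (205, 781, 823, 338). -/
def OrdThm : Prop :=
  ∀ (X : Type) [TopologicalSpace X] [T2Space X] [CompactSpace X] [ConnectedSpace X]
    [ChartedSpace C2 X] [IsManifold 𝓘(ℂ, C2) ω X] (n : ℕ) (O : BlockOut X n), Nonempty (Chain O)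

/-- Exact holomorphic frames of the bundles near the inner end: `e^{-ψ} e_{i₀}` is a holomorphic
frame of `(E i, a i)` on `{f < -R₀}` and tends to `e_{i₀}`. So for `b = (i, k)` the function
`(α_b)_{i₀} e^{ψ ∘ γ^{-k}}` is holomorphic on `{f < k - R₀}`. -/
def ExactFrames (O : BlockOut X n) : Prop :=
  ∃ R₀ c K : ℝ, 0 < c ∧ ∀ i : Fin n, ∃ ψ : Cov O.B.hh → ℂ, Reg0 ∞ 0 ψ ∧
    (∀ x, O.B.D.f x < -R₀ → ∀ j, dbar0 0 ψ x j = O.a i x j) ∧
    ∀ x, O.B.D.f x ≤ 0 → ‖ψ x‖ ≤ K * Real.exp (c * O.B.D.f x)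

/-- GX-FRAME (378, 585, 959). -/
def FrameThm : Prop :=
  ∀ (X : Type) [TopologicalSpace X] [T2Space X] [CompactSpace X] [ConnectedSpace X]
    [ChartedSpace C2 X] [IsManifold 𝓘(ℂ, C2) ω X] (n : ℕ) (O : BlockOut X n) (_ : Chain O),
    ExactFrames O

/-- The end of the proof, by ROUTE S or by LINE X. -/
def EndThm : Prop :=
  ∀ (X : Type) [TopologicalSpace X] [T2Space X] [CompactSpace X] [ConnectedSpace X]
    [ChartedSpace C2 X] [IsManifold 𝓘(ℂ, C2) ω X] (n : ℕ) (O : BlockOut X n) (_ : Chain O),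
    ExactFrames O → HasGSS X

/-- **Assembly of the Global Spherical Shell conjecture.** -/
theorem gss (hBlock : BlockThm) (hOrd : OrdThm) (hFrame : FrameThm) (hEnd : EndThm) :
    GSSConjecture := by
  intro X _ _ _ _ _ _ n hX
  obtain ⟨O, -⟩ := hBlock X n hX 0
  obtain ⟨Ch⟩ := hOrd X n O
  exact hEnd X n O Ch (hFrame X n O Ch)

end Vale.Agent.P267.LineX
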