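import Vale.Agent.P267.H456.Assembly
import Vale.Agent.P267.H359.XtFullThm

/-!
# P267, LINE X / ROUTE S of the endgame: the common input

`BlockOut X n` packages, for one minimal surface `X` of class VII with `b₂(X) = n`, everything that
the blocks of `H456/Assembly.lean` deliver: the infinite cyclic cover `Cov B.hh` with its metric and
height function, the analysis on it (`H359.AnLeaves`), Riemann-Roch on the finite cyclic covers, the
bundles `E i`, `i : Fin n`, their holomorphic structures `a i` and sections `α i` (`H359.XtFull`,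
the same weights `d₀/4`, `d₀/2` for all bundles), and the curves in the zero sets.

`BlockThm` is the statement that it exists; `blockThm` derives it from the block theorems.

For `b = (i, k)`, `bL b`, `ba b`, `bα b` are the bundle, its holomorphic structure and its section
translated outward by `k`: they are `E i`, `a i`, `α i` composed with `γ^(-k)`.
-/

set_option linter.unusedVariables false

open scoped Manifold ContDiff ComplexConjugate Matrix Topology
open Set Filter
open Vale.Agent.P272.K (Cm)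
open Vale.Agent.P267.FL Vale.Agent.P267.H158 Vale.Agent.P267.XT Vale.Agent.P267.H338

noncomputable section

namespace Vale.Agent.P267.LineX

/-- Everything that the blocks A to D deliver for the surface `X`. -/
structure BlockOut (X : Type) [TopologicalSpace X] [ChartedSpace C2 X] (n : ℕ) where
  vii : IsMinimalVII X n
  B : Asm.Base X
  nef : Asm.Nef X
  surf : ∀ (m : ℕ) [NeZero m], BlockC.SurfIn (CovM B.hh m) (m * n)
  /-- Riemann-Roch, Serre duality, finiteness on the finite cyclic covers -/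
  rr : ∀ (m : ℕ) [NeZero m], H824.RRIn (CovM B.hh m)
  /-- the bundles -/
  E : Fin n → BlockC.ALB (Cov B.hh)
  i₀ : ∀ i, (E i).ι
  R : ℝ
  good : ∀ i, Asm.GoodLB B (E i) (i₀ i) R
  dot : ∀ (i j k) (L' : LB (Cov B.hh) (E j).ι), BlockC.IsShift B.hh k (E j).L L' →
      RR.isec (E i).L L' = if i = j ∧ k = 0 then -1 else 0
  /-- the analysis on the cover -/
  d₀ : ℝ
  leaves : H359.AnLeaves B.D d₀
  t0O : ∀ d, B.D.RootGap d → B.D.T0OLeaf d
  t1o : ∀ d, B.D.RootGap d → ∀ δ, 0 < δ → δ ≤ d / 2 → H706.T1s B.D δ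
  /-- rate of decay of the holomorphic structures at the ends -/
  N₀ : ℝ
  le_N₀ : d₀ ≤ N₀
  /-- holomorphic structures and sections -/
  a : ∀ _ : Fin n, Cov B.hh → Fin 2 → ℂ
  α : ∀ i, Cov B.hh → EuclideanSpace ℂ (E i).ι
  Rc : Fin n → ℝ
  full : ∀ i, H359.XtFull B.D (E i).L (a i) (i₀ i) R (Rc i) N₀ (α i) (d₀ / 4) (d₀ / 2)
  pole : ∀ i, H692.PoleStatement B.D (E i).L (α i)
  ends : ∀ i, H692.EndStatement B.D (α i)
  curves : ∀ i x, α i x = 0 → ∃ φ : EmbP1 (Cov B.hh), x ∈ φ.image ∧ ∀ y ∈ φ.image, α i y = 0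

/-- The output of the blocks A to D. The rate `N₀` can be prescribed. -/
def BlockThm : Prop :=
  ∀ (X : Type) [TopologicalSpace X] [T2Space X] [CompactSpace X] [ConnectedSpace X]
    [ChartedSpace C2 X] [IsManifold 𝓘(ℂ, C2) ω X] (n : ℕ), IsMinimalVII X n →
    ∀ N : ℝ, ∃ O : BlockOut X n, N ≤ O.N₀

theorem t1o_of {M : Type} [TopologicalSpace M] [ChartedSpace C2 M] [IsManifold 𝓘(ℂ, C2) ω M]
    {D : XTData M} {d₀ : ℝ} (h : H359.AnLeaves D d₀) {d : ℝ} (hd : D.RootGap d)
    (hT : D.T0OLeaf d) {δ : ℝ} (hδ : 0 < δ) (hδ' : δ ≤ d / 2) : H706.T1s D δ := by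
  have hd0 : 0 < d := hd.pos
  have hT1 : D.T1 (LB.triv 0 : LB M (Fin 1)) 0 δ 0 := by
    refine XTData.t1_gen h.t0K h.t2 h.t1 hd0 (D.endTriv_triv (0 : Fin 1) 0 d)
      (D.perSeq_triv (0 : Fin 1) d) _ 0 ?_ (h.h1O (Fin 1) 0 0)
    obtain ⟨C, hC, h⟩ := hT (Fin 1) 0 δ hδ (by linarith)
    exact ⟨0, C, hC, fun m _ => h⟩
  exact H706.t1s_of_T1 D hT1

theorem blockThm (hBase : Asm.BaseThm) (hNef : Asm.NefThm) (hSurf : Asm.SurfThm)
    (hC : BlockC.Thm) (hl : LeafThms) (hRR : RRInThm) (hNo : NoFlThm) (hAin : AinThm)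
    (hCone : Asm.ConeThm) (hCurve : Asm.CurveThm) : BlockThm := by
  intro X _ _ _ _ _ _ n hX N
  obtain ⟨B⟩ := hBase X n hX
  have : LocallyConnectedSpace X := ChartedSpace.locallyConnectedSpace (Cm 2) X
  have : ConnectedSpace (Cov B.hh) := Cov.connectedSpace B.prim
  have hN : Asm.Nef X := hNef X n hX
  have hS := hSurf X n hX hN B
  obtain ⟨E, i₀, R, hR, htriv, hdot, hcan, hper⟩ := hC X B.hh n B.smooth B.prim hS
  have hgood : ∀ i, Asm.GoodLB B (E i) (i₀ i) R := by
    intro i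
    refine ⟨hR, htriv i, ?_, hcan i, fun m _ hm => hper m hm i⟩
    have := hdot i i 0 (E i).L (fun x => by
      rw [Cov.shift_zero])
    simpa using this
  obtain ⟨d₀, hL, hfull⟩ := H359.xtFullThm hl hRR hNo hAin X n hX hN B hS
  have ht0 : ∀ d, B.D.RootGap d → B.D.T0OLeaf d := fun d hd => hl.t0O _ B.D d hL.nf hd
  choose a α R' hx using fun i =>
    hfull (E i) (i₀ i) R (hgood i) (max N d₀) (le_max_right _ _)
  have h1 := fun i =>
    hCone (Cov B.hh) B.D (E i).ι (E i).L (a i) (i₀ i) (R' i) (α i) _ _ (hx i).cone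
  refine ⟨{ vii := hX, B := B, nef := hN, surf := hS, rr := hRR X n hX hN B hS, E := E, i₀ := i₀,
            R := R, good := hgood, dot := hdot, d₀ := d₀, leaves := hL, t0O := ht0,
            t1o := fun d hd δ hδ hδ' => t1o_of hL hd (ht0 d hd) hδ hδ',
            N₀ := max N d₀, le_N₀ := le_max_right _ _, a := a, α := α, Rc := R', full := hx,
            pole := fun i => (h1 i).1, ends := fun i => (h1 i).2,
            curves := fun i => hCurve (Cov B.hh) B.D (E i).ι (E i).L (a i) (i₀ i) (R' i) (α i)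
              _ _ (hx i).cone (h1 i).1 (h1 i).2 }, le_max_left _ _⟩

namespace BlockOut

section

variable {X : Type} [TopologicalSpace X] [ChartedSpace C2 X] {n : ℕ} (O : BlockOut X n)

theorem R_nonneg (i : Fin n) : 0 ≤ O.R := (O.good i).R_nonneg

theorem triv (i : Fin n) : BlockC.EndTriv O.B.hh (O.E i) (O.i₀ i) O.R := (O.good i).triv

theorem can (i : Fin n) (K : BlockC.ALB (Cov O.B.hh)) (h : RR.IsCanon K.L) :
    RR.isec K.L (O.E i).L = -1 := (O.good i).can K h

theorem cone (i : Fin n) :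
    H692.XtCone O.B.D (O.E i).L (O.a i) (O.i₀ i) (O.Rc i) (O.α i) (O.d₀ / 4) (O.d₀ / 2) :=
  (O.full i).cone

end

variable {X : Type} [TopologicalSpace X] [ChartedSpace C2 X] [IsManifold 𝓘(ℂ, C2) ω X] {n : ℕ}
  (O : BlockOut X n)

/-- `E i` translated outward by `k`, `b = (i, k)` -/
def bL (b : Fin n × ℤ) : LB (Cov O.B.hh) (O.E b.1).ι := O.B.D.shL (-b.2) (O.E b.1).L

/-- its holomorphic structure -/
def ba (b : Fin n × ℤ) : Cov O.B.hh → Fin 2 → ℂ := fun x => O.a b.1 (O.B.D.sh (-b.2) x)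

/-- its section -/
def bα (b : Fin n × ℤ) : Cov O.B.hh → EuclideanSpace ℂ (O.E b.1).ι :=
  fun x => O.α b.1 (O.B.D.sh (-b.2) x)

/-- its squared norm, a norm function with divisor `D_b` -/
def N (b : Fin n × ℤ) : Cov O.B.hh → ℝ := fun x => ‖O.bα b x‖ ^ 2

end BlockOut

end Vale.Agent.P267.LineX
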