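import Vale.Agent.P267.H457.Block

/-!
# P267, LINE X / ROUTE S of the endgame: translates of the output of the blocks

`XtCone`, `Sol2`, `EndTriv` and T1 for the translates `(bL b, ba b, bα b)`, `b = (i, k)`, of the
bundles of a `BlockOut`, all with the same weights `d₀/4`, `d₀/2`.
-/

set_option linter.unusedVariables false
set_option linter.unusedSectionVars false

open scoped Manifold ContDiff ComplexConjugate Matrix Topology
open Set Filter
open Vale.Agent.P267.FL Vale.Agent.P267.H158 Vale.Agent.P267.XT Vale.Agent.P267.H692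
open Vale.Agent.P267.H739

noncomputable section

namespace Vale.Agent.P267.LineX

section weights

variable {M : Type} [TopologicalSpace M] [ChartedSpace C2 M] [IsManifold 𝓘(ℂ, C2) ω M]
  (D : XTData M) (k : ℤ) {d : ℝ}

theorem exp_sh (t : ℝ) (x : M) :
    Real.exp (t * D.f (D.sh k x)) = Real.exp (t * k) * Real.exp (t * D.f x) := by
  rw [D.f_sh, ← Real.exp_add]
  congr 1
  ring

/-- a bound of weight `t` is preserved by translations -/
theorem bd_sh {t : ℝ} {n : M → ℝ} (h : ∃ C : ℝ, ∀ x, n x ≤ C * Real.exp (t * D.f x)) :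
    ∃ C : ℝ, ∀ x, n (D.sh k x) ≤ C * Real.exp (t * D.f x) := by
  obtain ⟨C, h⟩ := h
  refine ⟨C * Real.exp (t * k), fun x => ?_⟩
  refine (h (D.sh k x)).trans (le_of_eq ?_)
  rw [exp_sh]
  ring

variable {V : Type*} [NormedAddCommGroup V] [InnerProductSpace ℂ V]

theorem w0_sh {u : M → V} (h : W0 D d u) : W0 D d fun x => u (D.sh k x) :=
  ⟨(D.chartMap_sh k).reg0_comp h.reg, bd_sh D k h.bd⟩

theorem w1_sh {w : M → Fin 2 → V} (h : W1 D d w) : W1 D d fun x => w (D.sh k x) := by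
  refine ⟨(D.chartMap_sh k).reg1_comp h.reg, ?_⟩
  simp only [D.n1_comp_sh]
  exact bd_sh D k h.bd

theorem w2_sh {b : M → V} (h : W2 D d b) : W2 D d fun x => b (D.sh k x) := by
  refine ⟨(D.chartMap_sh k).reg2_comp h.reg, ?_⟩
  simp only [D.n2_comp_sh]
  exact bd_sh D k h.bd

/-- a continuous function which decays at the inner end: the same for the translates -/
theorem in_sh {t : ℝ} {n : M → ℝ} (hn : Continuous n)
    (h : ∃ C : ℝ, ∀ x, D.f x ≤ 0 → n x ≤ C * Real.exp (t * D.f x)) :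
    ∃ C : ℝ, ∀ x, D.f x ≤ 0 → n (D.sh k x) ≤ C * Real.exp (t * D.f x) := by
  obtain ⟨C, h⟩ := h
  -- a bound on `0 ≤ f ≤ |k|`
  have hb : ∃ A : ℝ, 0 ≤ A ∧ ∀ x, 0 ≤ D.f x → D.f x ≤ |k| → n x ≤ A := by
    have hc : IsCompact (⋃ j ∈ Finset.Icc (0 : ℤ) |k|, D.slab j) :=
      (Finset.Icc (0 : ℤ) |k|).isCompact_biUnion fun j _ => D.isCompact_slab j
    obtain ⟨A, hA⟩ := (hc.image hn).bddAbove
    refine ⟨max A 0, le_max_right _ _, fun x h0 h1 => ?_⟩
    refine le_trans (hA ⟨x, ?_, rfl⟩) (le_max_left _ _)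
    refine mem_iUnion₂.2 ⟨⌊D.f x⌋, Finset.mem_Icc.2 ⟨Int.floor_nonneg.2 h0, ?_⟩,
      Int.floor_le _, (Int.lt_floor_add_one _).le⟩
    exact Int.floor_le_iff.2 (by linarith)
  obtain ⟨A, hA0, hA⟩ := hb
  refine ⟨|C| * Real.exp (t * k) + A * Real.exp (|t| * |k|), fun x hx => ?_⟩
  have he := Real.exp_pos (t * D.f x)
  have he' := Real.exp_pos (t * k)
  rcases le_total (D.f (D.sh k x)) 0 with h1 | h1
  · refine (h _ h1).trans ?_
    rw [exp_sh]
    have h2 : C * (Real.exp (t * k) * Real.exp (t * D.f x)) ≤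
        |C| * (Real.exp (t * k) * Real.exp (t * D.f x)) :=
      mul_le_mul_of_nonneg_right (le_abs_self C) (by positivity)
    have h3 : 0 ≤ A * Real.exp (|t| * |k|) * Real.exp (t * D.f x) := by positivity
    nlinarith
  · have h2 : n (D.sh k x) ≤ A := by
      refine hA _ h1 ?_
      rw [D.f_sh]
      push_cast
      have := le_abs_self (k : ℝ)
      linarith
    have h3 : 1 ≤ Real.exp (|t| * |k|) * Real.exp (t * D.f x) := by
      rw [← Real.exp_add]
      apply Real.one_le_exp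
      rw [D.f_sh] at h1
      have h4 : |D.f x| ≤ |(k : ℝ)| := by
        rw [abs_of_nonpos hx]
        have := le_abs_self (k : ℝ)
        linarith
      have h5 : |t * D.f x| ≤ |t| * |(k : ℝ)| := by
        rw [abs_mul]
        exact mul_le_mul_of_nonneg_left h4 (abs_nonneg _)
      have := neg_abs_le (t * D.f x)
      push_cast
      linarith
    have h4 : 0 ≤ |C| * Real.exp (t * k) * Real.exp (t * D.f x) := by positivity
    nlinarith

theorem exp_abs_sh {N : ℝ} (hN : 0 ≤ N) (x : M) :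
    Real.exp (-(N * |D.f (D.sh k x)|)) ≤ Real.exp (N * |k|) * Real.exp (-(N * |D.f x|)) := by
  rw [← Real.exp_add]
  apply Real.exp_le_exp.2
  have h1 : |D.f x| ≤ |D.f (D.sh k x)| + |(k : ℝ)| := by
    rw [D.f_sh]
    have h := abs_sub (D.f x + k) (k : ℝ)
    rwa [add_sub_cancel_right] at h
  push_cast
  nlinarith

theorem decay_sh {N : ℝ} (hN : 0 ≤ N) {n : M → ℝ} (hn : ∀ x, 0 ≤ n x)
    (h : ∃ C : ℝ, ∀ x, n x ≤ C * Real.exp (-(N * |D.f x|))) :
    ∃ C : ℝ, ∀ x, n (D.sh k x) ≤ C * Real.exp (-(N * |D.f x|)) := by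
  obtain ⟨C, h⟩ := h
  refine ⟨|C| * Real.exp (N * |k|), fun x => ?_⟩
  refine (h (D.sh k x)).trans ?_
  have h1 : C * Real.exp (-(N * |D.f (D.sh k x)|)) ≤ |C| * Real.exp (-(N * |D.f (D.sh k x)|)) :=
    mul_le_mul_of_nonneg_right (le_abs_self C) (Real.exp_pos _).le
  refine h1.trans ?_
  rw [mul_assoc]
  exact mul_le_mul_of_nonneg_left (exp_abs_sh D k hN x) (abs_nonneg C)

theorem le_abs_f {R : ℝ} {x : M} (h : R + |(k : ℝ)| ≤ |D.f x|) : R ≤ |D.f (D.sh k x)| := by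
  have h1 : |D.f x| ≤ |D.f (D.sh k x)| + |(k : ℝ)| := by
    rw [D.f_sh]
    have h := abs_sub (D.f x + k) (k : ℝ)
    rwa [add_sub_cancel_right] at h
  linarith

theorem le_f {R : ℝ} {x : M} (h : R + |(k : ℝ)| ≤ D.f x) : R ≤ D.f (D.sh k x) := by
  rw [D.f_sh]
  have := neg_abs_le (k : ℝ)
  linarith

end weights

section bundles

variable {M : Type} [TopologicalSpace M] [ChartedSpace C2 M] [IsManifold 𝓘(ℂ, C2) ω M]
  (D : XTData M) (k : ℤ) {ι : Type} [Fintype ι] [DecidableEq ι] {L : LB M ι} {a : M → Fin 2 → ℂ}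
  {i₀ : ι} {α : M → EuclideanSpace ℂ ι} {R N d d' : ℝ}

theorem shL_dual : (D.shL k L).dual = D.shL k L.dual := rfl

theorem sec_sh {s : M → EuclideanSpace ℂ ι} (h : (D.shL k L).Sec s) :
    L.Sec fun x => s (D.sh (-k) x) := by
  intro x
  have h1 := h (D.sh (-k) x)
  rwa [XTData.shL_P, D.sh_sh_neg] at h1

theorem sec1_sh {w : M → Fin 2 → EuclideanSpace ℂ ι} (h : (D.shL k L).Sec1 w) :
    L.Sec1 fun x => w (D.sh (-k) x) := by
  intro x i
  have h1 := h (D.sh (-k) x) i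
  rwa [XTData.shL_P, D.sh_sh_neg] at h1

theorem EndTriv.sh (hN : 0 ≤ N) (h : D.EndTriv L i₀ a R N) :
    D.EndTriv (D.shL k L) i₀ (fun x => a (D.sh k x)) (R + |(k : ℝ)|) N where
  hol := (D.chartMap_sh k).lb_isHol h.hol
  ends x hx := h.ends _ (le_abs_f D k hx)
  decay := by
    simp only [D.n1_comp_sh]
    exact decay_sh D k hN (fun x => n1_nonneg a x) h.decay
  decay' := by
    have h1 : ∀ x, ‖trh D.h (del1 fun y => a (D.sh k y)) x‖ = ‖trh D.h (del1 a) (D.sh k x)‖ := by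
      intro x
      rw [trh, trh, (D.chartMap_sh k).del1_comp, D.h_sh]
    simp only [h1]
    exact decay_sh D k hN (fun x => norm_nonneg _) h.decay'

/-- `XtCone` for a translate -/
theorem XtCone.sh (h : XtCone D L a i₀ R α d d') :
    XtCone D (D.shL k L) (fun x => a (D.sh k x)) i₀ (R + |(k : ℝ)|) (fun x => α (D.sh k x)) d d'
    where
  d_pos := h.d_pos
  d_lt := h.d_lt
  R_pos := by
    have := h.R_pos
    positivity
  hol := (D.chartMap_sh k).lb_isHol h.hol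
  triv x hx := h.triv _ (le_abs_f D k hx)
  a_in := by
    simp only [D.n1_comp_sh]
    exact in_sh D k (H692.continuous_n1 D.herm h.hol.smooth) h.a_in
  α_reg := (D.chartMap_sh k).reg0_comp h.α_reg
  α_sec x := h.α_sec (D.sh k x)
  α_hol x i := by
    rw [XTData.shL, (D.chartMap_sh k).lb_db0]
    exact h.α_hol _ i
  α_bdd := by
    obtain ⟨C, hC⟩ := h.α_bdd
    exact ⟨C, fun x => hC _⟩
  α_in := in_sh D k (n := fun x => ‖α x‖) h.α_reg.continuous.norm h.α_in
  α_out x hx := h.α_out _ (le_f D k hx)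
  α_dense := by
    have h1 : {x | α (D.sh k x) ≠ 0} = D.sh (-k) '' {x | α x ≠ 0} := by
      ext x
      constructor
      · intro hx
        exact ⟨D.sh k x, hx, D.sh_neg_sh k x⟩
      · rintro ⟨y, hy, rfl⟩
        simpa using hy
    rw [h1]
    exact (D.sh_surjective (-k)).denseRange.dense_image (D.continuous_sh (-k)) h.α_dense
  A0 := h.A0
  A1 := h.A1
  A2 b hb hW := by
    obtain ⟨η, h1, h2, h3⟩ := h.A2 (fun x => b (D.sh (-k) x))
      (sec_sh D k (L := L.dual) hb) (w2_sh D (-k) hW)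
    refine ⟨fun x => η (D.sh k x), fun x i => h1 (D.sh k x) i, w1_sh D k h2, fun x => ?_⟩
    have := (D.chartMap_sh k).lb_db1 L.dual (neg a) 0 η x
    rw [shL_dual, XTData.shL]
    refine this.trans ?_
    rw [h3, D.sh_neg_sh]
  A3 η₁ η₂ s₁ w₁ c₁ s₂ w₂ c₂ := by
    have key : ∀ η : M → Fin 2 → EuclideanSpace ℂ ι, (∀ x, (D.shL k L).dual.db1
        (neg fun x => a (D.sh k x)) 0 η x = 0) →
        ∀ x, L.dual.db1 (neg a) 0 (fun y => η (D.sh (-k) y)) x = 0 := by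
      intro η hη x
      have h1 := (D.chartMap_sh k).lb_db1 L.dual (neg a) 0 (fun y => η (D.sh (-k) y))
        (D.sh (-k) x)
      have h2 : (fun z => η (D.sh (-k) (D.sh k z))) = η := by
        funext z
        rw [D.sh_neg_sh]
      rw [h2, D.sh_sh_neg] at h1
      rw [← h1]
      exact hη _
    obtain ⟨t₁, t₂, h0, t, h1, h2, h3⟩ := h.A3 (fun x => η₁ (D.sh (-k) x))
      (fun x => η₂ (D.sh (-k) x)) (sec1_sh D k (L := L.dual) s₁)
      (w1_sh D (-k) w₁) (key η₁ c₁) (sec1_sh D k (L := L.dual) s₂)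
      (w1_sh D (-k) w₂) (key η₂ c₂)
    refine ⟨t₁, t₂, h0, fun x => t (D.sh k x), fun x => h1 (D.sh k x), w0_sh D k h2,
      fun x i => ?_⟩
    have := congrFun ((D.chartMap_sh k).lb_db0 L.dual (neg a) 0 t x) i
    rw [shL_dual, XTData.shL]
    refine this.trans ?_
    rw [h3, D.sh_neg_sh]
  A5 := h.A5

/-- `Sol2` for a translate -/
theorem Sol2.sh {K : ℝ} (hS : Sol2 D L a d K) :
    Sol2 D (D.shL k L) (fun x => a (D.sh k x)) d K := by
  intro b hb hr B hB
  have e1 : ∀ x, n2 D.h 0 (fun y => b (D.sh (-k) y)) x ≤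
      B * Real.exp (d * k) * Real.exp (-d * D.f x) := by
    intro x
    rw [D.n2_comp_sh]
    refine (hB _).trans (le_of_eq ?_)
    rw [exp_sh, mul_assoc]
    congr 3
    push_cast
    ring
  obtain ⟨η, h1, h2, h3, h4⟩ := hS (fun x => b (D.sh (-k) x))
      (sec_sh D k (L := L.dual) hb) ((D.chartMap_sh (-k)).reg2_comp hr) _ e1
  refine ⟨fun x => η (D.sh k x), fun x i => h1 (D.sh k x) i, (D.chartMap_sh k).reg1_comp h2,
    fun x => ?_, fun x => ?_⟩
  · have := (D.chartMap_sh k).lb_db1 L.dual (neg a) 0 η x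
    rw [shL_dual, XTData.shL]
    refine this.trans ?_
    rw [h3, D.sh_neg_sh]
  · rw [D.n1_comp_sh]
    refine (h4 _).trans (le_of_eq ?_)
    rw [exp_sh]
    have : Real.exp (d * k) * Real.exp (-d * k) = 1 := by
      rw [← Real.exp_add]
      simp
    calc K * (B * Real.exp (d * k)) * (Real.exp (-d * k) * Real.exp (-d * D.f x))
        = K * B * (Real.exp (d * k) * Real.exp (-d * k)) * Real.exp (-d * D.f x) := by ring
      _ = _ := by rw [this, mul_one]

theorem p1_sh {V : Type*} [NormedAddCommGroup V] [InnerProductSpace ℂ V] (w : M → Fin 2 → V)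
    (j : ℤ) : D.p1 0 (fun x => w (D.sh k x)) j = D.p1 0 w (j + k) := by
  rw [XTData.p1, XTData.p1, ← D.prof_comp_sh]
  congr 1
  funext x
  rw [D.n1_comp_sh]

theorem p0_sh {V : Type*} [NormedAddCommGroup V] [InnerProductSpace ℂ V] (w : M → V)
    (j : ℤ) : D.p0 0 (fun x => w (D.sh k x)) j = D.p0 0 w (j + k) := by
  rw [XTData.p0, XTData.p0, ← D.prof_comp_sh]
  congr 1
  funext x
  rw [D.n0_comp_sh]

theorem bdw_sh {n : ℤ → ℝ} {δ : ℝ} (h : ∃ A, ∀ j, n j ≤ A * ew δ j) :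
    ∃ A, ∀ j, n (j + k) ≤ A * ew δ j := by
  obtain ⟨A, hA⟩ := h
  refine ⟨A * ew δ k, fun j => (hA (j + k)).trans (le_of_eq ?_)⟩
  rw [ew, ew, ew, mul_assoc, ← Real.exp_add]
  congr 2
  push_cast
  ring

/-- T1 for a translate -/
theorem T1.sh {δ : ℝ} {r : ℕ} (h : D.T1 L a δ r) :
    D.T1 (D.shL k L) (fun x => a (D.sh k x)) δ r := by
  intro g hg
  obtain ⟨c, hc, u, h1, h2, h3, h4⟩ := h (fun i x => g i (D.sh (-k) x)) fun i => by
    obtain ⟨g1, g2, g3, g4⟩ := hg i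
    refine ⟨(D.chartMap_sh (-k)).reg1_comp g1, sec1_sh D k g2, ?_,
      fun x => ?_⟩
    · simp only [p1_sh]
      exact bdw_sh (-k) g3
    · have h1 := (D.chartMap_sh k).lb_db1 L a 0 (fun y => g i (D.sh (-k) y)) (D.sh (-k) x)
      have h2 : (fun z => g i (D.sh (-k) (D.sh k z))) = g i := by
        funext z
        rw [D.sh_neg_sh]
      rw [h2, D.sh_sh_neg] at h1
      rw [← h1]
      exact g4 _
  refine ⟨c, hc, fun x => u (D.sh k x), (D.chartMap_sh k).reg0_comp h1, fun x => h2 (D.sh k x),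
    ?_, fun x j => ?_⟩
  · simp only [p0_sh]
    exact bdw_sh k h3
  · have := congrFun ((D.chartMap_sh k).lb_db0 L a 0 u x) j
    rw [XTData.shL]
    refine this.trans ?_
    rw [h4]
    simp

end bundles

namespace BlockOut

variable {X : Type} [TopologicalSpace X] [ChartedSpace C2 X] [IsManifold 𝓘(ℂ, C2) ω X] {n : ℕ}
  (O : BlockOut X n)

/-- the radius for the translate `b = (i, k)` -/
def Rb (b : Fin n × ℤ) : ℝ := O.R + |((-b.2 : ℤ) : ℝ)|

/-- the same for the section -/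
def Rcb (b : Fin n × ℤ) : ℝ := O.Rc b.1 + |((-b.2 : ℤ) : ℝ)|

theorem N₀_pos : 0 < O.N₀ := lt_of_lt_of_le O.leaves.pos O.le_N₀

/-- `b = (i, k)`: trivial at the ends -/
theorem endTriv_b (b : Fin n × ℤ) :
    O.B.D.EndTriv (O.bL b) (O.i₀ b.1) (O.ba b) (O.Rb b) O.N₀ :=
  EndTriv.sh O.B.D (-b.2) O.N₀_pos.le (O.full b.1).ends

/-- `XtCone` for all translates, with the same weights -/
theorem cone_b (b : Fin n × ℤ) :
    XtCone O.B.D (O.bL b) (O.ba b) (O.i₀ b.1) (O.Rcb b) (O.bα b) (O.d₀ / 4) (O.d₀ / 2) :=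
  XtCone.sh O.B.D (-b.2) (O.full b.1).cone

theorem sol1 (i : Fin n) : ∃ K, 0 ≤ K ∧ Sol1 O.B.D (O.d₀ / 4) K := (O.full i).sol1

/-- `Sol2` for all translates -/
theorem sol2_b (b : Fin n × ℤ) :
    ∃ K, 0 ≤ K ∧ Sol2 O.B.D (O.bL b) (O.ba b) (O.d₀ / 4) K := by
  obtain ⟨K, hK, h⟩ := (O.full b.1).sol2
  exact ⟨K, hK, Sol2.sh O.B.D (-b.2) h⟩

theorem t1_b (b : Fin n × ℤ) : O.B.D.T1 (O.bL b) (O.ba b) (-(O.d₀ / 4)) 0 :=
  T1.sh O.B.D (-b.2) (O.full b.1).t1

theorem t1_dual_b (b : Fin n × ℤ) :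
    O.B.D.T1 (O.bL b).dual (fun x i => -O.ba b x i) (-(O.d₀ / 4)) 1 :=
  T1.sh O.B.D (-b.2) (O.full b.1).t1'

/-- asymptotics of the section at the outer end -/
theorem out_b (b : Fin n × ℤ) : ∃ A : ℝ, 0 ≤ A ∧ ∀ x, O.Rcb b ≤ O.B.D.f x →
    ‖O.bα b x - EuclideanSpace.single (O.i₀ b.1) 1‖ ≤ A * Real.exp (-(O.d₀ / 4) * O.B.D.f x) := by
  obtain ⟨A, hA, h⟩ := (O.full b.1).out
  refine ⟨A * Real.exp (-(O.d₀ / 4) * ((-b.2 : ℤ) : ℝ)), by positivity, fun x hx => ?_⟩
  refine (h _ (le_f O.B.D (-b.2) hx)).trans (le_of_eq ?_)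
  rw [exp_sh]
  ring

/-- `∂̄ α_b = 0`, `α_b` is a section of `bL b`, and so on are fields of `cone_b`; this is the
relation of `N b` with translations -/
theorem N_sh (i : Fin n) (k l : ℤ) (x : Cov O.B.hh) :
    O.N (i, k + l) x = O.N (i, k) (O.B.D.sh (-l) x) := by
  simp only [N, bα]
  rw [← O.B.D.sh_add]
  congr 5
  ring

end BlockOut

end Vale.Agent.P267.LineX
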